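import Vale.Agent.P026Z.Poi.Defs

/-!
P026, block V6: the mean square statement `ThmT` for squarefree twists (output of the Voronoi
block, input of the outer layer).
-/

namespace Vale.Agent.P026Z.V6

open Vale.Agent.P006 Vale.Agent.P006.V1 Vale.Agent.P026Z.Poi
open scoped ComplexConjugate

open Classical in
/-- the twisted sum `∑_{k primary} c(k) f(k) conj χ(k) W(N k / X) (N k / X)^{it}` -/
noncomputable def Csum (c f χ : O → ℂ) (W : ℝ → ℂ) (X t : ℝ) : ℂ :=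
  ∑' k : O, if Primary k then c k * f k * conj (χ k) * wt W t (N k / X) else 0

/-- Mean square over squarefree `h` of the twisted sums. Intended meaning:
`c k = N(k)^{1/6} th(k) k/|k|`, `χ h k = (k/h)_6`. -/
def ThmT (c : O → ℂ) (χ : O → O → ℂ) : Prop :=
  ∀ W : ℝ → ℂ, IsWt W → ∀ ε : ℝ, 0 < ε → ∃ (C : ℝ) (K : ℕ),
    ∀ (t X Y : ℝ) (M : O) (f : O → O → ℂ) (S : Finset O), 1 ≤ X → 1 ≤ Y → M ≠ 0 →
      (∀ h k, ‖f h k‖ ≤ 1) → (∀ h, Per M (f h)) →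
      (∀ h ∈ S, Primary h ∧ Squarefree h ∧ IsCoprime h (2 * M) ∧ (N h : ℝ) ≤ Y) →
      ∑ h ∈ S, ‖Csum c (f h) (χ h) W X t‖ ^ 2 ≤
        C * (1 + |t|) ^ K * (X * Y * N M) ^ ε * (X * N M * (Y + Y ^ 2 * (N M : ℝ) ^ 2 / X))

end Vale.Agent.P026Z.V6
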