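import Vale.Agent.P026Z.V6.Iface
import Vale.Agent.P006.H357.Defs
import Mathlib.RingTheory.UniqueFactorizationDomain.Multiplicative

/-!
P026, block V6: every `h ≠ 0` is `e h1 a² b³` with `e ∣ Q` and `h1` squarefree, prime to `Q a b`;
the covering inequality for sums over `h`.
-/

namespace Vale.Agent.P026Z.V6

open Vale.Agent.P006 Vale.Agent.P006.V1 Vale.Agent.P006.HB Finset

theorem decomp0 (Q h : O) : h ≠ 0 → ∃ e h1 a b : O, e ∣ Q ∧ Squarefree h1 ∧ IsCoprime h1 Q ∧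
    IsCoprime h1 a ∧ IsCoprime h1 b ∧ h = e * h1 * a ^ 2 * b ^ 3 := by
  refine UniqueFactorizationMonoid.induction_on_coprime
    (P := fun h => h ≠ 0 → ∃ e h1 a b : O, e ∣ Q ∧ Squarefree h1 ∧ IsCoprime h1 Q ∧
      IsCoprime h1 a ∧ IsCoprime h1 b ∧ h = e * h1 * a ^ 2 * b ^ 3) h ?_ ?_ ?_ ?_
  · intro h; exact absurd rfl h
  · intro x hx _
    exact ⟨x, 1, 1, 1, hx.dvd, squarefree_one, isCoprime_one_left, isCoprime_one_left,
      isCoprime_one_left, by ring⟩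
  · intro p i hp _
    rcases Nat.even_or_odd' i with ⟨j, rfl | rfl⟩
    · exact ⟨1, 1, p ^ j, 1, one_dvd _, squarefree_one, isCoprime_one_left, isCoprime_one_left,
        isCoprime_one_left, by ring⟩
    · rcases j with _ | j
      · by_cases hq : p ∣ Q
        · exact ⟨p, 1, 1, 1, hq, squarefree_one, isCoprime_one_left, isCoprime_one_left,
            isCoprime_one_left, by ring⟩
        · exact ⟨1, p, 1, 1, one_dvd _, hp.squarefree,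
            (hp.irreducible.coprime_iff_not_dvd).2 hq, isCoprime_one_right,
            isCoprime_one_right, by ring⟩
      · exact ⟨1, 1, p ^ j, p, one_dvd _, squarefree_one, isCoprime_one_left, isCoprime_one_left,
          isCoprime_one_left, by ring⟩
  · intro x y hxy hx hy h0
    obtain ⟨e, h1, a, b, he, hs, c1, c2, c3, rfl⟩ := hx (left_ne_zero_of_mul h0)
    obtain ⟨e', h1', a', b', he', hs', c1', c2', c3', rfl⟩ := hy (right_ne_zero_of_mul h0)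
    have hc : IsCoprime (e * h1 * a ^ 2 * b ^ 3) (e' * h1' * a' ^ 2 * b' ^ 3) :=
      isRelPrime_iff_isCoprime.1 hxy
    have key : ∀ u v : O, u ∣ e * h1 * a ^ 2 * b ^ 3 → v ∣ e' * h1' * a' ^ 2 * b' ^ 3 →
        IsCoprime u v := fun u v hu hv =>
      (hc.of_isCoprime_of_dvd_left hu).of_isCoprime_of_dvd_right hv
    have d1 : e ∣ e * h1 * a ^ 2 * b ^ 3 := ⟨h1 * a ^ 2 * b ^ 3, by ring⟩
    have d2 : h1 ∣ e * h1 * a ^ 2 * b ^ 3 := ⟨e * a ^ 2 * b ^ 3, by ring⟩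
    have d3 : a ∣ e * h1 * a ^ 2 * b ^ 3 := ⟨e * h1 * a * b ^ 3, by ring⟩
    have d4 : b ∣ e * h1 * a ^ 2 * b ^ 3 := ⟨e * h1 * a ^ 2 * b ^ 2, by ring⟩
    have d1' : e' ∣ e' * h1' * a' ^ 2 * b' ^ 3 := ⟨h1' * a' ^ 2 * b' ^ 3, by ring⟩
    have d2' : h1' ∣ e' * h1' * a' ^ 2 * b' ^ 3 := ⟨e' * a' ^ 2 * b' ^ 3, by ring⟩
    have d3' : a' ∣ e' * h1' * a' ^ 2 * b' ^ 3 := ⟨e' * h1' * a' * b' ^ 3, by ring⟩
    have d4' : b' ∣ e' * h1' * a' ^ 2 * b' ^ 3 := ⟨e' * h1' * a' ^ 2 * b' ^ 2, by ring⟩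
    refine ⟨e * e', h1 * h1', a * a', b * b', (key _ _ d1 d1').mul_dvd he he', ?_,
      c1.mul_left c1', ?_, ?_, by ring⟩
    · exact squarefree_mul_iff.2 ⟨(key _ _ d2 d2').isRelPrime, hs, hs'⟩
    · exact (c2.mul_right (key _ _ d2 d3')).mul_left ((key _ _ d3 d2').symm.mul_right c2')
    · exact (c3.mul_right (key _ _ d2 d4')).mul_left ((key _ _ d4 d2').symm.mul_right c3')

/-- the decomposition with `h1` primary -/
theorem decomp1 {Q : O} (hQ : (3 : O) ∣ Q) {h : O} (hh : h ≠ 0) :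
    ∃ e h1 a b : O, e ∣ Q ∧ Primary h1 ∧ Squarefree h1 ∧ IsCoprime h1 Q ∧
      IsCoprime h1 a ∧ IsCoprime h1 b ∧ h = e * h1 * a ^ 2 * b ^ 3 := by
  obtain ⟨e, h1, a, b, he, hs, c1, c2, c3, rfl⟩ := decomp0 Q h hh
  have hl : ¬ lam ∣ h1 := by
    intro hd
    exact prime_lam.not_isUnit (c1.isUnit_of_dvd' hd (lam_dvd_three.trans hQ))
  obtain ⟨u, hu, hp⟩ := exists_unit_mul_primary hl
  obtain ⟨v, rfl⟩ := hu
  refine ⟨e * ((v⁻¹ : Oˣ) : O), v * h1, a, b, ?_, hp, ?_, ?_, ?_, ?_, ?_⟩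
  · exact (Units.mul_right_dvd).2 he
  · exact (Associated.squarefree_iff ⟨v, mul_comm _ _⟩).1 hs
  · exact (isCoprime_mul_unit_left_left v.isUnit _ _).2 c1
  · exact (isCoprime_mul_unit_left_left v.isUnit _ _).2 c2
  · exact (isCoprime_mul_unit_left_left v.isUnit _ _).2 c3
  · have : ((v⁻¹ : Oˣ) : O) * v = 1 := v.inv_mul
    calc e * h1 * a ^ 2 * b ^ 3 = e * (((v⁻¹ : Oˣ) : O) * v) * h1 * a ^ 2 * b ^ 3 := by
          rw [this, mul_one]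
      _ = _ := by ring

open Classical in
/-- the squarefree parts attached to `(a, b)` -/
noncomputable def Sab (Q : O) (Y : ℝ) (a b : O) : Finset O :=
  (Hn Y).filter (fun h => Primary h ∧ Squarefree h ∧ IsCoprime h (Q * a * b) ∧
    (N h : ℝ) * ((N a : ℝ) ^ 2 * (N b : ℝ) ^ 3) ≤ Y)

open Classical in
/-- the divisors of `Q` -/
noncomputable def Dv (Q : O) : Finset O := (Hn (N Q : ℝ)).filter (fun e => e ∣ Q)

theorem one_le_N' {z : O} (hz : z ≠ 0) : (1 : ℝ) ≤ N z := by exact_mod_cast N_pos hz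

/-- the covering inequality -/
theorem sum_Hn_cover {Q : O} (hQ0 : Q ≠ 0) (hQ : (3 : O) ∣ Q) (Y : ℝ) (g : O → ℝ)
    (hg : ∀ h, 0 ≤ g h) :
    ∑ h ∈ Hn Y, g h ≤ ∑ e ∈ Dv Q, ∑ a ∈ Hn Y, ∑ b ∈ Hn Y, ∑ h ∈ Sab Q Y a b,
      g (e * h * a ^ 2 * b ^ 3) := by
  classical
  have h1 := sum_le_sum_cover (Hn Y)
    ((Dv Q).sigma fun _ => (Hn Y).sigma fun a => (Hn Y).sigma fun b => Sab Q Y a b)
    (fun x => x.1 * x.2.2.2 * x.2.1 ^ 2 * x.2.2.1 ^ 3) ?_ g hg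
  · refine h1.trans (le_of_eq ?_)
    rw [sum_sigma]
    refine sum_congr rfl fun e _ => ?_
    rw [sum_sigma]
    refine sum_congr rfl fun a _ => ?_
    rw [sum_sigma]
  · intro h hh
    rw [mem_Hn] at hh
    obtain ⟨e, h1, a, b, he, hp, hs, c1, c2, c3, rfl⟩ := decomp1 hQ hh.2
    have h0 := hh.2
    have e0 : e ≠ 0 := by rintro rfl; simp at h0
    have a0 : a ≠ 0 := by rintro rfl; simp at h0
    have b0 : b ≠ 0 := by rintro rfl; simp at h0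
    have k0 : h1 ≠ 0 := hp.ne_zero
    have ne := one_le_N' e0
    have na := one_le_N' a0
    have nb := one_le_N' b0
    have nk := one_le_N' k0
    have hN : (N e : ℝ) * N h1 * (N a : ℝ) ^ 2 * (N b : ℝ) ^ 3 ≤ Y := by
      have := hh.1
      simpa [N_mul, N_pow] using this
    have na2 : (1 : ℝ) ≤ (N a : ℝ) ^ 2 := one_le_pow₀ na
    have nb3 : (1 : ℝ) ≤ (N b : ℝ) ^ 3 := one_le_pow₀ nb
    have hN1 : (N h1 : ℝ) * ((N a : ℝ) ^ 2 * (N b : ℝ) ^ 3) ≤ Y := by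
      refine le_trans ?_ hN
      have : (N h1 : ℝ) * ((N a : ℝ) ^ 2 * (N b : ℝ) ^ 3) * 1 ≤
          (N h1 : ℝ) * ((N a : ℝ) ^ 2 * (N b : ℝ) ^ 3) * N e := by gcongr
      linarith
    have hab : (1 : ℝ) ≤ (N a : ℝ) ^ 2 * (N b : ℝ) ^ 3 := one_le_mul_of_one_le_of_one_le na2 nb3
    have hA : (N a : ℝ) ≤ Y := by
      refine le_trans ?_ hN1
      calc (N a : ℝ) = 1 * (N a * 1 * 1) := by ring
        _ ≤ (N h1 : ℝ) * ((N a : ℝ) * N a * (N b : ℝ) ^ 3) := by gcongr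
        _ = _ := by ring
    have hB : (N b : ℝ) ≤ Y := by
      refine le_trans ?_ hN1
      have nb2 : (1 : ℝ) ≤ (N b : ℝ) ^ 2 := one_le_pow₀ nb
      calc (N b : ℝ) = 1 * (1 * (N b * 1)) := by ring
        _ ≤ (N h1 : ℝ) * ((N a : ℝ) ^ 2 * ((N b : ℝ) * (N b : ℝ) ^ 2)) := by gcongr
        _ = _ := by ring
    have hK : (N h1 : ℝ) ≤ Y := by
      refine le_trans ?_ hN1
      calc (N h1 : ℝ) = N h1 * 1 := by ring
        _ ≤ _ := by gcongr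
    refine ⟨⟨e, a, b, h1⟩, ?_, rfl⟩
    simp only [mem_sigma, Dv, Sab, mem_filter, mem_Hn]
    refine ⟨⟨⟨?_, e0⟩, he⟩, ⟨hA, a0⟩, ⟨hB, b0⟩, ⟨hK, k0⟩, hp, hs, (c1.mul_right c2).mul_right c3,
      hN1⟩
    exact_mod_cast Nat.le_of_dvd (N_pos hQ0) (N_dvd_N he)

end Vale.Agent.P026Z.V6
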