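import Vale.Agent.P026Z.V6.Main
import Vale.Agent.P026Z.Vor.Iface
import Vale.Agent.P026Z.TH.Coef
import Vale.Agent.P026Z.Sym.Hil

/-!
P026, block V6: the hypotheses `VHyp` for the sextic symbol and the theta coefficients.
-/

namespace Vale.Agent.P026Z.V6

open Vale.Agent.P006 Vale.Agent.P006.V1 Vale.Agent.P026Z.Poi Vale.Agent.P026Z.Sym
open scoped ComplexConjugate

theorem exists_two_pow_mul : ∀ (n : ℕ) (b : O), N b = n → Primary b →
    ∃ (i : ℕ) (b0 : O), Adm b0 ∧ b = (-2) ^ i * b0 := by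
  intro n
  induction n using Nat.strong_induction_on with
  | _ n ih =>
    intro b hn hb
    by_cases h2 : (2 : O) ∣ b
    · obtain ⟨c, rfl⟩ := h2
      have hc : Primary (-c) := by
        refine primary_neg_two.of_mul ?_
        rwa [neg_mul_neg]
      have hlt : N (-c) < n := by
        rw [← hn, N_mul, N_two, N_neg]
        have := N_pos (z := c) (by simpa using hc.ne_zero)
        omega
      obtain ⟨i, b0, h0, h1⟩ := ih _ hlt (-c) rfl hc
      refine ⟨i + 1, b0, h0, ?_⟩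
      rw [pow_succ, mul_comm ((-2 : O) ^ i), mul_assoc, ← h1]
      ring
    · exact ⟨0, b, ⟨hb, odd_iff_not_dvd.2 h2⟩, by simp⟩

theorem exists_bad_mul {x : O} (hx : x ≠ 0) :
    ∃ (k x0 : O) (j : ℕ), k ∣ 6 ^ j ∧ Adm x0 ∧ x = k * x0 := by
  obtain ⟨μ, b, ⟨u, j, hu, rfl⟩, hb, rfl⟩ := TH.exists_ram_mul hx
  obtain ⟨i, b0, h0, rfl⟩ := exists_two_pow_mul _ b rfl hb
  refine ⟨u * lam ^ j * (-2) ^ i, b0, j + i, ?_, h0, by ring⟩
  rw [mul_assoc, hu.mul_left_dvd, pow_add]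
  refine mul_dvd_mul (pow_dvd_pow_of_dvd ?_ _) (pow_dvd_pow_of_dvd ?_ _)
  · exact lam_dvd_three.trans ⟨2, by norm_num⟩
  · exact ⟨-3, by norm_num⟩

/-- periodicity in the modulus -/
theorem x6_per_mod (hSR : ∀ a b : O, Adm a → Adm b → x6 a b = hil a b * x6 b a)
    (hBAD : ∀ (k m m' : O) (j : ℕ), k ∣ 6 ^ j → Adm m → Adm m' → (72 : O) ∣ m - m' →
      x6 m k = x6 m' k)
    (x m m' : O) (hx : x ≠ 0) (hm : Adm m) (hm' : Adm m') (h : 72 * x ∣ m - m') :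
    x6 m x = x6 m' x := by
  obtain ⟨k, x0, j, hk, h0, rfl⟩ := exists_bad_mul hx
  rw [x6_mul, x6_mul, hBAD k m m' j hk hm hm' (Dvd.dvd.trans ⟨k * x0, rfl⟩ h),
    hSR m x0 hm h0, hSR m' x0 hm' h0,
    hil_congr_left (Dvd.dvd.trans ⟨18 * (k * x0), by ring⟩ h) x0,
    x6_per x0 m m' (Dvd.dvd.trans ⟨72 * k, by ring⟩ h)]

theorem alpha_eq (k : O) : alpha k = Vor.alp k := rfl

theorem alp_pow (x : O) (j : ℕ) (hj : 0 < j) : Vor.alp (x ^ j) = Vor.alp x ^ j := by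
  obtain ⟨j, rfl⟩ : ∃ i, j = i + 1 := ⟨j - 1, by omega⟩
  clear hj
  induction j with
  | zero => simp
  | succ j ih => rw [pow_succ, Vor.alp_mul, ih, ← pow_succ]

/-- the theta coefficients of the sextic data -/
theorem tau_eq_th (S : Sext) (hg : ∀ n, Sq n → S.g n = conj (alpha n) * gt 1 n)
    (hw : ∀ b, Adm b → S.w b = ((Real.sqrt (N b) : ℝ) : ℂ) * conj (alpha b) ^ 3) (m : O)
    (hm : Adm m) : conj (TH.th 1) * S.tau m = conj (Vor.cf TH.th m * Vor.alp m) := by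
  by_cases h : ∃ n b : O, Sq n ∧ Adm b ∧ m = n * b ^ 3
  · obtain ⟨n, b, hn, hb, rfl⟩ := h
    have hn0 : (0 : ℝ) < N n := by exact_mod_cast N_pos hn.1.1.ne_zero
    have hb0 : (0 : ℝ) < N b := by exact_mod_cast N_pos hb.1.ne_zero
    have e1 : ((N (n * b ^ 3) : ℝ)) ^ (1 / 6 : ℝ) * (N n : ℝ) ^ (-(1 / 6) : ℝ) =
        Real.sqrt (N b) := by
      rw [N_mul, N_pow, Nat.cast_mul, Nat.cast_pow, Real.mul_rpow hn0.le (by positivity),
        ← Real.rpow_natCast, ← Real.rpow_mul hb0.le, Real.sqrt_eq_rpow, Real.rpow_neg hn0.le]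
      have : (N n : ℝ) ^ (1 / 6 : ℝ) ≠ 0 := by positivity
      field_simp
      norm_num
    rw [S.tau_eq n b hn hb, hg n hn, hw b hb, Vor.cf, TH.th_primary ⟨hn.1.1, hn.2⟩ hb.1,
      Vor.alp_mul, alp_pow b 3 (by norm_num), alpha_eq, alpha_eq, ← e1]
    simp only [map_mul, map_pow, Complex.conj_conj, Complex.conj_ofReal, Complex.ofReal_mul]
    ring
  · rw [S.tau_zero m hm h, mul_zero]
    have h0 : TH.th m = 0 := by
      have := TH.th_eq_zero TH.ram_one hm.1 (by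
        rintro ⟨n, b, hn, hb, rfl⟩
        refine h ⟨n, b, ⟨⟨hn.1, hm.2.of_mul_left_left⟩, hn.2⟩, ⟨hb, ?_⟩, rfl⟩
        exact (IsCoprime.pow_left_iff (by norm_num : 0 < 3)).1 hm.2.of_mul_left_right)
      rwa [one_mul] at this
    rw [Vor.cf, h0]
    simp

theorem vhyp (S : Sext) (hchi : S.chi = x6) (hg : ∀ n, Sq n → S.g n = conj (alpha n) * gt 1 n)
    (hw : ∀ b, Adm b → S.w b = ((Real.sqrt (N b) : ℝ) : ℂ) * conj (alpha b) ^ 3)
    (hSR : ∀ a b : O, Adm a → Adm b → x6 a b = hil a b * x6 b a)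
    (hBAD : ∀ (k m m' : O) (j : ℕ), k ∣ 6 ^ j → Adm m → Adm m' → (72 : O) ∣ m - m' →
      x6 m k = x6 m' k) :
    VHyp S (fun k => Vor.cf TH.th k * Vor.alp k) where
  recip := ⟨fun a b => (hil a b : ℂ), fun a b => (norm_hil a b).le, fun a => hil_per_right a,
    fun a b ha hb => by rw [hchi, hSR b a hb ha, hil_comm]⟩
  per := fun x m m' hx hm hm' h => by rw [hchi]; exact x6_per_mod hSR hBAD x m m' hx hm hm' h
  tau := ⟨conj (TH.th 1), by simpa using TH.th_one_ne_zero, tau_eq_th S hg hw⟩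

theorem thmT_of_vor {θ : O → ℂ} {χ : O → O → ℂ} (h : Vor.ThmT θ χ) :
    ThmT (fun k => Vor.cf θ k * Vor.alp k) χ := by
  intro W hW ε hε
  obtain ⟨C, A, -, H⟩ := h W hW ε hε
  exact ⟨C, A, H⟩

/-- the theta input of the Poisson block -/
theorem TB_of_vor (S : Sext) (hchi : S.chi = x6)
    (hg : ∀ n, Sq n → S.g n = conj (alpha n) * gt 1 n)
    (hw : ∀ b, Adm b → S.w b = ((Real.sqrt (N b) : ℝ) : ℂ) * conj (alpha b) ^ 3)
    (hSR : ∀ a b : O, Adm a → Adm b → x6 a b = hil a b * x6 b a)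
    (hBAD : ∀ (k m m' : O) (j : ℕ), k ∣ 6 ^ j → Adm m → Adm m' → (72 : O) ∣ m - m' →
      x6 m k = x6 m' k)
    (hT : Vor.ThmT TH.th x6) : TB S :=
  TB_of_ThmT S (vhyp S hchi hg hw hSR hBAD) (by rw [hchi]; exact thmT_of_vor hT)

end Vale.Agent.P026Z.V6
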