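import Vale.Agent.P026Z.V6.Glue
import Vale.Agent.P026Z.Sym.Supp

/-!
P026, block V6: the theta input of the Poisson block for the sextic symbol.
-/

namespace Vale.Agent.P026Z.V6

open Vale.Agent.P006 Vale.Agent.P006.V1 Vale.Agent.P026Z.Poi Vale.Agent.P026Z.Sym
open scoped ComplexConjugate

theorem vhyp' (S : Sext) (hchi : S.chi = x6) (hg : ∀ n, Sq n → S.g n = conj (alpha n) * gt 1 n)
    (hw : ∀ b, Adm b → S.w b = ((Real.sqrt (N b) : ℝ) : ℂ) * conj (alpha b) ^ 3) :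
    VHyp S (fun k => Vor.cf TH.th k * Vor.alp k) where
  recip := ⟨fun a b => (hil a b : ℂ), fun a b => (norm_hil a b).le, fun a => hil_per_right a,
    fun a b ha hb => by rw [hchi, x6_recip hb.1 ha.1 hb.2 ha.2, hil_comm]⟩
  per := fun x m m' hx hm hm' h => by
    rw [hchi]; exact x6_congr_left hx hm.1 hm'.1 hm.2 hm'.2 h
  tau := ⟨conj (TH.th 1), by simpa using TH.th_one_ne_zero, tau_eq_th S hg hw⟩

/-- the theta input of the Poisson block -/
theorem TB_of_vor' (S : Sext) (hchi : S.chi = x6)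
    (hg : ∀ n, Sq n → S.g n = conj (alpha n) * gt 1 n)
    (hw : ∀ b, Adm b → S.w b = ((Real.sqrt (N b) : ℝ) : ℂ) * conj (alpha b) ^ 3)
    (hT : Vor.ThmT TH.th x6) : TB S :=
  TB_of_ThmT S (vhyp' S hchi hg hw) (by rw [hchi]; exact thmT_of_vor hT)

end Vale.Agent.P026Z.V6
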