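import Vale.Agent.P026Z.V6.Decomp
import Mathlib.Analysis.Calculus.ContDiff.Comp

/-!
P026, block V6: from the mean square over squarefree twists (`ThmT`) to the mean square over all
`h ≠ 0` (`TB`).
-/

namespace Vale.Agent.P026Z.V6

open Vale.Agent.P006 Vale.Agent.P006.V1 Vale.Agent.P006.HB Vale.Agent.P026Z.Poi Finset
open scoped ComplexConjugate

/-- the extra properties of the sextic data used in this block -/
structure VHyp (S : Sext) (c : O → ℂ) : Prop where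
  recip : ∃ hil : O → O → ℂ, (∀ a b, ‖hil a b‖ ≤ 1) ∧ (∀ a, Per 4 (hil a)) ∧
    ∀ a b, Adm a → Adm b → S.chi b a = hil a b * S.chi a b
  per : ∀ x m m' : O, x ≠ 0 → Adm m → Adm m' → 72 * x ∣ m - m' → S.chi m x = S.chi m' x
  tau : ∃ z : ℂ, z ≠ 0 ∧ ∀ m, Adm m → z * S.tau m = conj (c m)

theorem adm_congr {m m' : O} (h : (6 : O) ∣ m - m') (hm : Adm m) : Adm m' := by
  obtain ⟨k, hk⟩ := h
  have e : m' = m + (2 : O) * (-(3 * k)) := by linear_combination -hk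
  refine ⟨?_, ?_⟩
  · obtain ⟨j, hj⟩ := hm.1
    exact ⟨j - 2 * k, by rw [e]; linear_combination hj⟩
  · rw [e]
    exact hm.2.add_mul_left_left _

theorem norm_chi_le (S : Sext) {n : O} (hn : Adm n) (u : O) : ‖S.chi n u‖ ≤ 1 := by
  have h := congrArg norm (S.conj_mul n u hn)
  rw [norm_mul, RCLike.norm_conj] at h
  have h2 : ‖cop n u‖ ≤ 1 := by
    unfold cop; split_ifs <;> simp
  nlinarith [norm_nonneg (S.chi n u)]

theorem IsWt.conj {W : ℝ → ℂ} (hW : IsWt W) : IsWt (fun x => conj (W x)) := by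
  obtain ⟨h1, a, b, ha, h2⟩ := hW
  refine ⟨Complex.conjCLE.contDiff.comp h1, a, b, ha, fun x hx => h2 x fun h0 => hx ?_⟩
  simp [h0]

theorem conj_wt (W : ℝ → ℂ) (t : ℝ) {x : ℝ} (hx : 0 < x) :
    conj (wt W t x) = wt (fun x => conj (W x)) (-t) x := by
  have h : conj ((x : ℂ) ^ ((t : ℂ) * Complex.I)) = (x : ℂ) ^ (conj ((t : ℂ) * Complex.I)) := by
    rw [Complex.cpow_conj _ _ (by
      rw [Complex.arg_ofReal_of_nonneg hx.le]; exact Real.pi_ne_zero.symm), Complex.conj_ofReal]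
  rw [wt, wt, map_mul, h]
  congr 2
  simp

open Classical in
/-- the class function attached to `(e, a, b)` and `h` -/
noncomputable def Ff (S : Sext) (κ : O → ℂ) (hil : O → O → ℂ) (e a b h m : O) : ℂ :=
  if Adm m then conj (κ m * (S.chi m e * S.chi m a ^ 2 * S.chi m b ^ 3) * hil h m) else 0

theorem norm_Ff_le (S : Sext) {κ : O → ℂ} (hκ : ∀ x, ‖κ x‖ ≤ 1) {hil : O → O → ℂ}
    (hh : ∀ a b, ‖hil a b‖ ≤ 1) (e a b h m : O) : ‖Ff S κ hil e a b h m‖ ≤ 1 := by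
  unfold Ff
  split_ifs with hm
  · rw [RCLike.norm_conj, norm_mul, norm_mul, norm_mul, norm_mul, norm_pow, norm_pow]
    have h1 := hκ m
    have h2 := norm_chi_le S hm e
    have h3 := norm_chi_le S hm a
    have h4 := norm_chi_le S hm b
    have h5 := hh h m
    calc _ ≤ 1 * (1 * 1 ^ 2 * 1 ^ 3) * (1 : ℝ) := by gcongr
      _ = 1 := by norm_num
  · simp

theorem Ff_per (S : Sext) {κ : O → ℂ} (hκ : Per S.q κ) {hil : O → O → ℂ}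
    (hh : ∀ a, Per 4 (hil a))
    (hper : ∀ x m m' : O, x ≠ 0 → Adm m → Adm m' → 72 * x ∣ m - m' → S.chi m x = S.chi m' x)
    {e a b : O} (he : e ∣ 6 * S.q) (ha : a ≠ 0) (hb : b ≠ 0) (h : O) :
    Per (72 * (6 * S.q * a * b)) (Ff S κ hil e a b h) := by
  intro m m' hmm
  have h6 : (6 : O) ∣ m - m' := Dvd.dvd.trans ⟨72 * S.q * a * b, by ring⟩ hmm
  have h6' : (6 : O) ∣ m' - m := by rw [← neg_sub]; exact h6.neg_right
  have e0 : e ≠ 0 := by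
    rintro rfl
    have := zero_dvd_iff.1 he
    exact mul_ne_zero (by decide) S.q_ne this
  unfold Ff
  by_cases hm : Adm m
  · have hm' := adm_congr h6 hm
    rw [if_pos hm, if_pos hm']
    obtain ⟨e', he'⟩ := he
    rw [hκ m m' (Dvd.dvd.trans ⟨72 * 6 * a * b, by ring⟩ hmm),
      hh h m m' (Dvd.dvd.trans ⟨18 * (6 * S.q * a * b), by ring⟩ hmm),
      hper e m m' e0 hm hm' (Dvd.dvd.trans ⟨e' * a * b, by rw [he']; ring⟩ hmm),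
      hper a m m' ha hm hm' (Dvd.dvd.trans ⟨6 * S.q * b, by ring⟩ hmm),
      hper b m m' hb hm hm' (Dvd.dvd.trans ⟨6 * S.q * a, by ring⟩ hmm)]
  · rw [if_neg hm, if_neg fun hm' => hm (adm_congr h6' hm')]

theorem chi_pow (S : Sext) {m : O} (hm : Adm m) (x : O) (j : ℕ) :
    S.chi m (x ^ (j + 1)) = S.chi m x ^ (j + 1) := by
  induction j with
  | zero => simp
  | succ j ih => rw [pow_succ, S.chi_mul _ _ _ hm, ih, ← pow_succ]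

/-- the completed sum at `e h a² b³` is the conjugate of a twisted sum -/
theorem Tsum_eq (S : Sext) {c : O → ℂ} {z : ℂ} (hz : ∀ m, Adm m → z * S.tau m = conj (c m))
    {hil : O → O → ℂ} (hrec : ∀ a b, Adm a → Adm b → S.chi b a = hil a b * S.chi a b)
    (κ : O → ℂ) (W : ℝ → ℂ) {X : ℝ} (hX : 0 < X) (t : ℝ) (e a b : O) {h : O} (hh : Adm h) :
    z * Tsum S κ W X t (e * h * a ^ 2 * b ^ 3) =
      conj (Csum c (Ff S κ hil e a b h) (S.chi h) (fun x => conj (W x)) X (-t)) := by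
  classical
  rw [Tsum, Csum, ← tsum_mul_left, Complex.conj_tsum]
  refine tsum_congr fun m => ?_
  by_cases hm : Adm m
  · have hN : (0 : ℝ) < N m / X := div_pos (by exact_mod_cast N_pos hm.1.ne_zero) hX
    rw [if_pos hm, if_pos hm.1, Ff, if_pos hm, ← conj_wt W t hN, S.chi_mul _ _ _ hm,
      S.chi_mul _ _ _ hm, S.chi_mul _ _ _ hm, chi_pow S hm a 1, chi_pow S hm b 2, hrec h m hh hm]
    simp only [map_mul, Complex.conj_conj, ← hz m hm]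
    ring
  · rw [if_neg hm, mul_zero]
    by_cases hp : Primary m
    · rw [if_pos hp, Ff, if_neg hm]; simp
    · rw [if_neg hp]; simp

theorem arith_ab {X Y c A B : ℝ} (hX : 0 < X) (hY : 0 ≤ Y) (hc : 1 ≤ c) (hA : 1 ≤ A)
    (hB : 1 ≤ B) :
    X * (c * A * B) * (Y / (A ^ 2 * B ^ 3) + (Y / (A ^ 2 * B ^ 3)) ^ 2 * (c * A * B) ^ 2 / X) ≤
      c ^ 3 * (X * (Y + Y ^ 2 / X)) * (A⁻¹ * B⁻¹) := by
  have hA0 : 0 < A := by linarith
  have hB0 : 0 < B := by linarith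
  have hc0 : 0 < c := by linarith
  have e1 : X * (c * A * B) * (Y / (A ^ 2 * B ^ 3) + (Y / (A ^ 2 * B ^ 3)) ^ 2 * (c * A * B) ^ 2 / X)
      = (c * X * Y * (B⁻¹) + c ^ 3 * Y ^ 2 * (B⁻¹) ^ 2) * (A⁻¹ * B⁻¹) := by
    field_simp
  have e2 : c ^ 3 * (X * (Y + Y ^ 2 / X)) = c ^ 3 * X * Y * 1 + c ^ 3 * Y ^ 2 * 1 ^ 2 := by
    field_simp
  have hBi : B⁻¹ ≤ 1 := inv_le_one_of_one_le₀ hB
  have hc3 : c ≤ c ^ 3 := le_self_pow₀ hc (by norm_num)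
  rw [e1, e2]
  gcongr

/-- the statement of `ThmT` for one weight and given constants -/
def TBound (c : O → ℂ) (χ : O → O → ℂ) (W : ℝ → ℂ) (ε C : ℝ) (K : ℕ) : Prop :=
  ∀ (t X Y : ℝ) (M : O) (f : O → O → ℂ) (S : Finset O), 1 ≤ X → 1 ≤ Y → M ≠ 0 →
    (∀ h k, ‖f h k‖ ≤ 1) → (∀ h, Per M (f h)) →
    (∀ h ∈ S, Primary h ∧ Squarefree h ∧ IsCoprime h (2 * M) ∧ (N h : ℝ) ≤ Y) →
    ∑ h ∈ S, ‖Csum c (f h) (χ h) W X t‖ ^ 2 ≤
      C * (1 + |t|) ^ K * (X * Y * N M) ^ ε * (X * N M * (Y + Y ^ 2 * (N M : ℝ) ^ 2 / X))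

theorem mem_Sab {Q a b h : O} {Y : ℝ} (hh : h ∈ Sab Q Y a b) :
    Primary h ∧ Squarefree h ∧ IsCoprime h (Q * a * b) ∧
      (N h : ℝ) * ((N a : ℝ) ^ 2 * (N b : ℝ) ^ 3) ≤ Y := by
  classical
  exact (mem_filter.1 hh).2

theorem cop_Sab {q a b h : O} {Y : ℝ} (hh : h ∈ Sab (6 * q) Y a b) :
    IsCoprime h (2 * (72 * (6 * q * a * b))) := by
  have h1 := (mem_Sab hh).2.2.1
  have h6 : IsCoprime h 6 := h1.of_isCoprime_of_dvd_right ⟨q * a * b, by ring⟩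
  have h144 : IsCoprime h (2 * 72) :=
    (IsCoprime.pow_right (n := 4) h6).of_isCoprime_of_dvd_right ⟨9, by norm_num⟩
  rw [← mul_assoc]
  exact h144.mul_right h1

theorem arith_fin {X Y c A B C T ε : ℝ} (hX : 0 < X) (hY : 0 < Y) (hc : 1 ≤ c) (hA : 1 ≤ A)
    (hB : 1 ≤ B) (hT : 0 ≤ T) (hε : 0 ≤ ε) :
    C * T * (X * (Y / (A ^ 2 * B ^ 3)) * (c * A * B)) ^ ε * (X * (c * A * B) *
      (Y / (A ^ 2 * B ^ 3) + (Y / (A ^ 2 * B ^ 3)) ^ 2 * (c * A * B) ^ 2 / X)) ≤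
      |C| * c ^ ε * c ^ 3 * T * (X * Y) ^ ε * (X * (Y + Y ^ 2 / X)) * (A⁻¹ * B⁻¹) := by
  have hA0 : 0 < A := by linarith
  have hB0 : 0 < B := by linarith
  have hc0 : 0 < c := by linarith
  have h4 : X * (Y / (A ^ 2 * B ^ 3)) * (c * A * B) ≤ c * (X * Y) := by
    have e1 : X * (Y / (A ^ 2 * B ^ 3)) * (c * A * B) = c * (X * Y) * (A⁻¹ * (B⁻¹) ^ 2) := by
      field_simp
    have hA' : A⁻¹ ≤ 1 := inv_le_one_of_one_le₀ hA
    have hB' : B⁻¹ ≤ 1 := inv_le_one_of_one_le₀ hB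
    rw [e1]
    calc _ ≤ c * (X * Y) * (1 * 1 ^ 2) := by gcongr
      _ = _ := by ring
  have h5 : (X * (Y / (A ^ 2 * B ^ 3)) * (c * A * B)) ^ ε ≤ c ^ ε * (X * Y) ^ ε := by
    rw [← Real.mul_rpow hc0.le (by positivity)]
    exact Real.rpow_le_rpow (by positivity) h4 hε
  have h6 := arith_ab (Y := Y) hX hY.le hc hA hB
  calc _ ≤ |C| * T * (c ^ ε * (X * Y) ^ ε) *
        (c ^ 3 * (X * (Y + Y ^ 2 / X)) * (A⁻¹ * B⁻¹)) := by
        gcongr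
        exact le_abs_self C
    _ = _ := by ring

/-- the bound for one `(e, a, b)` -/
theorem block_le (S : Sext) {c : O → ℂ} {z : ℂ} (hz0 : z ≠ 0)
    (hz : ∀ m, Adm m → z * S.tau m = conj (c m))
    {hil : O → O → ℂ} (hil1 : ∀ a b, ‖hil a b‖ ≤ 1) (hil2 : ∀ a, Per 4 (hil a))
    (hrec : ∀ a b, Adm a → Adm b → S.chi b a = hil a b * S.chi a b)
    (hper : ∀ x m m' : O, x ≠ 0 → Adm m → Adm m' → 72 * x ∣ m - m' → S.chi m x = S.chi m' x)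
    {W : ℝ → ℂ} {ε C : ℝ} {K : ℕ} (hε : 0 ≤ ε)
    (hC : TBound c S.chi (fun x => conj (W x)) ε C K) {κ : O → ℂ} (hκ : Cls S.q κ)
    (t : ℝ) {X Y : ℝ} (hX : 1 ≤ X) (hY : 1 ≤ Y) {e a b : O} (he : e ∣ 6 * S.q) (ha : a ≠ 0)
    (hb : b ≠ 0) :
    ∑ h ∈ Sab (6 * S.q) Y a b, ‖Tsum S κ W X t (e * h * a ^ 2 * b ^ 3)‖ ^ 2 ≤
      (‖z‖ ^ 2)⁻¹ * (|C| * (N (72 * (6 * S.q)) : ℝ) ^ ε * (N (72 * (6 * S.q)) : ℝ) ^ 3 *
        (1 + |t|) ^ K * (X * Y) ^ ε * (X * (Y + Y ^ 2 / X)) * ((N a : ℝ)⁻¹ * (N b : ℝ)⁻¹)) := by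
  have hQ0 : 6 * S.q ≠ 0 := mul_ne_zero (by decide) S.q_ne
  have hc01 : (1 : ℝ) ≤ N (72 * (6 * S.q)) := one_le_N' (mul_ne_zero (by decide) hQ0)
  have hzn : 0 < ‖z‖ := norm_pos_iff.2 hz0
  have hX0 : 0 < X := by linarith
  have hY0 : 0 < Y := by linarith
  have na := one_le_N' ha
  have nb := one_le_N' hb
  rcases (Sab (6 * S.q) Y a b).eq_empty_or_nonempty with h0 | ⟨h0, hh0⟩
  · rw [h0, sum_empty]; positivity
  have hab : (0 : ℝ) < (N a : ℝ) ^ 2 * (N b : ℝ) ^ 3 := by positivity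
  have hY1 : 1 ≤ Y / ((N a : ℝ) ^ 2 * (N b : ℝ) ^ 3) := by
    have h1 := (mem_Sab hh0).2.2.2
    have h2 := one_le_N' (mem_Sab hh0).1.ne_zero
    rw [le_div_iff₀ hab]
    exact le_trans (mul_le_mul_of_nonneg_right h2 hab.le) h1
  have hM0 : 72 * (6 * S.q * a * b) ≠ 0 :=
    mul_ne_zero (by decide) (mul_ne_zero (mul_ne_zero hQ0 ha) hb)
  have h1 := hC (-t) X _ (72 * (6 * S.q * a * b)) (fun h => Ff S κ hil e a b h)
    (Sab (6 * S.q) Y a b) hX hY1 hM0 (fun h k => norm_Ff_le S hκ.2 hil1 e a b h k)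
    (fun h => Ff_per S hκ.1 hil2 hper he ha hb h)
    (fun h hh => ⟨(mem_Sab hh).1, (mem_Sab hh).2.1, cop_Sab hh, by
      rw [le_div_iff₀ hab]; exact (mem_Sab hh).2.2.2⟩)
  have hNM : (N (72 * (6 * S.q * a * b)) : ℝ) = (N (72 * (6 * S.q)) : ℝ) * N a * N b := by
    rw [show 72 * (6 * S.q * a * b) = 72 * (6 * S.q) * a * b by ring, N_mul _ b, N_mul _ a]
    push_cast; ring
  rw [hNM, abs_neg] at h1
  have h2 : ∀ h ∈ Sab (6 * S.q) Y a b, ‖Tsum S κ W X t (e * h * a ^ 2 * b ^ 3)‖ ^ 2 =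
      (‖z‖ ^ 2)⁻¹ * ‖Csum c (Ff S κ hil e a b h) (S.chi h) (fun x => conj (W x)) X (-t)‖ ^ 2 := by
    intro h hh
    have hadm : Adm h := ⟨(mem_Sab hh).1, (cop_Sab hh).of_mul_right_left⟩
    have h3 := congrArg norm (Tsum_eq S hz hrec κ W hX0 t e a b hadm)
    rw [norm_mul, RCLike.norm_conj] at h3
    rw [← h3]
    field_simp
  rw [sum_congr rfl h2, ← mul_sum]
  refine mul_le_mul_of_nonneg_left (h1.trans ?_) (by positivity)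
  exact arith_fin hX0 hY0 hc01 na nb (by positivity) hε

/-- **from squarefree twists to all twists** -/
theorem TB_of_ThmT (S : Sext) {c : O → ℂ} (hV : VHyp S c) (hT : ThmT c S.chi) : TB S := by
  classical
  intro W hW ε hε
  obtain ⟨hil, hil1, hil2, hrec⟩ := hV.recip
  obtain ⟨z, hz0, hz⟩ := hV.tau
  obtain ⟨C, K, hC⟩ := hT _ (IsWt.conj hW) (ε / 3) (by positivity)
  obtain ⟨C1, hC1, hinv⟩ := sum_inv_N_le (ε := ε / 3) (by positivity)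
  have hQ0 : 6 * S.q ≠ 0 := mul_ne_zero (by decide) S.q_ne
  obtain ⟨c0, hc0⟩ : ∃ c0 : ℝ, c0 = (N (72 * (6 * S.q)) : ℝ) := ⟨_, rfl⟩
  have hc00 : 0 ≤ c0 := by rw [hc0]; positivity
  refine ⟨(‖z‖ ^ 2)⁻¹ * (Dv (6 * S.q)).card * (|C| * c0 ^ (ε / 3) * c0 ^ 3) * C1 ^ 2, K,
    fun κ hκ t X Y hX hY => ?_⟩
  have hX0 : 0 < X := by linarith
  have hY0 : 0 < Y := by linarith
  obtain ⟨R, hR⟩ : ∃ R : ℝ, R = |C| * c0 ^ (ε / 3) * c0 ^ 3 * (1 + |t|) ^ K * (X * Y) ^ (ε / 3) *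
    (X * (Y + Y ^ 2 / X)) := ⟨_, rfl⟩
  have hR0 : 0 ≤ R := by rw [hR]; positivity
  have key : ∀ e ∈ Dv (6 * S.q), ∀ a ∈ Hn Y, ∀ b ∈ Hn Y, ∑ h ∈ Sab (6 * S.q) Y a b,
      ‖Tsum S κ W X t (e * h * a ^ 2 * b ^ 3)‖ ^ 2 ≤
        (‖z‖ ^ 2)⁻¹ * R * ((N a : ℝ)⁻¹ * (N b : ℝ)⁻¹) := by
    intro e he a ha b hb
    rw [mem_Hn] at ha hb
    have h1 := block_le S hz0 hz hil1 hil2 hrec hV.per (by positivity) hC hκ t hX hY
      (mem_filter.1 he).2 ha.2 hb.2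
    rw [← hc0, ← hR, ← mul_assoc] at h1
    exact h1
  have h3 : (3 : O) ∣ 6 * S.q := ⟨2 * S.q, by ring⟩
  have hinvY := hinv Y hY0.le
  have hs0 : 0 ≤ ∑ h ∈ Hn Y, (N h : ℝ)⁻¹ :=
    sum_nonneg fun h _ => inv_nonneg.2 (Nat.cast_nonneg _)
  have hYX : Y ^ (ε / 3) ≤ (X * Y) ^ (ε / 3) :=
    Real.rpow_le_rpow hY0.le (le_mul_of_one_le_left hY0.le hX) (by positivity)
  have hpow : (X * Y) ^ ε = (X * Y) ^ (ε / 3) * (X * Y) ^ (ε / 3) * (X * Y) ^ (ε / 3) := by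
    rw [← Real.rpow_add (by positivity), ← Real.rpow_add (by positivity)]
    congr 1; ring
  have hs1 : ∑ h ∈ Hn Y, (N h : ℝ)⁻¹ ≤ C1 * (X * Y) ^ (ε / 3) :=
    hinvY.trans (mul_le_mul_of_nonneg_left hYX hC1.le)
  calc ∑ h ∈ Hn Y, ‖Tsum S κ W X t h‖ ^ 2
      ≤ ∑ e ∈ Dv (6 * S.q), ∑ a ∈ Hn Y, ∑ b ∈ Hn Y, ∑ h ∈ Sab (6 * S.q) Y a b,
          ‖Tsum S κ W X t (e * h * a ^ 2 * b ^ 3)‖ ^ 2 :=
        sum_Hn_cover hQ0 h3 Y (fun h => ‖Tsum S κ W X t h‖ ^ 2) (fun h => by positivity)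
    _ ≤ ∑ e ∈ Dv (6 * S.q), ∑ a ∈ Hn Y, ∑ b ∈ Hn Y,
          (‖z‖ ^ 2)⁻¹ * R * ((N a : ℝ)⁻¹ * (N b : ℝ)⁻¹) :=
        sum_le_sum fun e he => sum_le_sum fun a ha => sum_le_sum fun b hb => key e he a ha b hb
    _ = (Dv (6 * S.q)).card * ((‖z‖ ^ 2)⁻¹ * R *
          ((∑ h ∈ Hn Y, (N h : ℝ)⁻¹) * ∑ h ∈ Hn Y, (N h : ℝ)⁻¹)) := by
        rw [sum_const, nsmul_eq_mul, sum_mul_sum]
        congr 1
        rw [mul_sum]
        exact sum_congr rfl fun a _ => by rw [mul_sum]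
    _ ≤ (Dv (6 * S.q)).card * ((‖z‖ ^ 2)⁻¹ * R *
          ((C1 * (X * Y) ^ (ε / 3)) * (C1 * (X * Y) ^ (ε / 3)))) :=
        mul_le_mul_of_nonneg_left (mul_le_mul_of_nonneg_left
          (mul_self_le_mul_self hs0 hs1) (mul_nonneg (by positivity) hR0)) (Nat.cast_nonneg _)
    _ = _ := by rw [hR, hpow]; ring

end Vale.Agent.P026Z.V6
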